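import Vale.Agent.P232.Defs

/-! # P232: integrals over the cube along coordinate lines -/

namespace Vale.Agent.P232

noncomputable section

open MeasureTheory Set

/-- Lebesgue measure on the unit interval. -/
def unitVol : Measure ℝ := volume.restrict (Ico (0 : ℝ) 1)

instance : IsProbabilityMeasure unitVol :=
  ⟨by simp [unitVol, Real.volume_Ico]⟩

lemma restrict_cube :
    (volume : Measure (ℝ × ℝ × ℝ)).restrict cube = unitVol.prod (unitVol.prod unitVol) := by
  simp only [unitVol, cube, Measure.prod_restrict]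
  rfl

lemma measurableSet_cube : MeasurableSet cube :=
  measurableSet_Ico.prod (measurableSet_Ico.prod measurableSet_Ico)

lemma volume_cube : volume cube = 1 := by
  rw [← Measure.restrict_apply_univ, restrict_cube]
  simp

lemma integral_unitVol (f : ℝ → ℝ) : ∫ x, f x ∂unitVol = ∫ x in (0 : ℝ)..1, f x := by
  rw [unitVol, intervalIntegral.integral_of_le zero_le_one, integral_Ioc_eq_integral_Ioo,
    integral_Ico_eq_integral_Ioo]

variable {F : ℝ × ℝ × ℝ → ℝ}

lemma setIntegral_cube_x (hF : IntegrableOn F cube) :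
    ∫ p in cube, F p = ∫ q, ∫ x, F (x, q) ∂unitVol ∂(unitVol.prod unitVol) := by
  unfold IntegrableOn at hF
  rw [restrict_cube] at hF ⊢
  exact integral_prod_symm F hF

lemma setIntegral_cube_y (hF : IntegrableOn F cube) :
    ∫ p in cube, F p = ∫ x, ∫ z, ∫ y, F (x, y, z) ∂unitVol ∂unitVol ∂unitVol := by
  unfold IntegrableOn at hF
  rw [restrict_cube] at hF ⊢
  rw [integral_prod F hF]
  refine integral_congr_ae ?_
  filter_upwards [hF.prod_right_ae] with x hx
  exact integral_prod_symm (fun q : ℝ × ℝ => F (x, q)) hx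

lemma setIntegral_cube_z (hF : IntegrableOn F cube) :
    ∫ p in cube, F p = ∫ x, ∫ y, ∫ z, F (x, y, z) ∂unitVol ∂unitVol ∂unitVol := by
  unfold IntegrableOn at hF
  rw [restrict_cube] at hF ⊢
  rw [integral_prod F hF]
  refine integral_congr_ae ?_
  filter_upwards [hF.prod_right_ae] with x hx
  exact integral_prod (fun q : ℝ × ℝ => F (x, q)) hx

/-- The closed unit cube is compact. -/
lemma integrableOn_cube_of_continuous (hF : Continuous F) : IntegrableOn F cube :=
  (hF.continuousOn.integrableOn_compact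
    (isCompact_Icc.prod (isCompact_Icc.prod isCompact_Icc) :
      IsCompact (Icc (0 : ℝ) 1 ×ˢ (Icc (0 : ℝ) 1 ×ˢ Icc (0 : ℝ) 1)))).mono_set
    (prod_mono Ico_subset_Icc_self (prod_mono Ico_subset_Icc_self Ico_subset_Icc_self))

variable {φ : ℝ × ℝ × ℝ → ℝ × ℝ × ℝ}

lemma Field.hasFDerivAt (h : Field φ) (p : ℝ × ℝ × ℝ) : HasFDerivAt φ (fderiv ℝ φ p) p :=
  (h.smooth.differentiable one_ne_zero p).hasFDerivAt

lemma Field.continuous_apply (h : Field φ) (v : ℝ × ℝ × ℝ) :
    Continuous fun p => fderiv ℝ φ p v :=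
  (h.smooth.continuous_fderiv one_ne_zero).clm_apply continuous_const

lemma Field.continuous_divg (h : Field φ) : Continuous (divg φ) :=
  (((h.continuous_apply e₁).fst).add ((h.continuous_apply e₂).snd.fst)).add
    ((h.continuous_apply e₃).snd.snd)

lemma Field.line_x (h : Field φ) (q : ℝ × ℝ) (x : ℝ) :
    HasDerivAt (fun t => (φ (t, q)).1) (fderiv ℝ φ (x, q) e₁).1 x := by
  have := ((h.hasFDerivAt (x, q)).comp_hasDerivAt x
    ((hasDerivAt_id x).prodMk (hasDerivAt_const x q)))
  exact this.fst

lemma Field.line_y (h : Field φ) (x z : ℝ) (y : ℝ) :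
    HasDerivAt (fun t => (φ (x, t, z)).2.1) (fderiv ℝ φ (x, y, z) e₂).2.1 y := by
  have := ((h.hasFDerivAt (x, y, z)).comp_hasDerivAt y
    ((hasDerivAt_const y x).prodMk ((hasDerivAt_id y).prodMk (hasDerivAt_const y z))))
  exact this.snd.fst

lemma Field.line_z (h : Field φ) (x y : ℝ) (z : ℝ) :
    HasDerivAt (fun t => (φ (x, y, t)).2.2) (fderiv ℝ φ (x, y, z) e₃).2.2 z := by
  have := ((h.hasFDerivAt (x, y, z)).comp_hasDerivAt z
    ((hasDerivAt_const z x).prodMk ((hasDerivAt_const z y).prodMk (hasDerivAt_id z))))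
  exact this.snd.snd

lemma Field.per_x (h : Field φ) (q : ℝ × ℝ) : (φ (1, q)).1 = (φ (0, q)).1 := by
  obtain ⟨y, z⟩ := q
  have := (h.per (0, y, z)).1
  simp only [e₁, Prod.mk_add_mk, zero_add, add_zero] at this
  rw [this]

lemma Field.per_y (h : Field φ) (x z : ℝ) : (φ (x, 1, z)).2.1 = (φ (x, 0, z)).2.1 := by
  have := (h.per (x, 0, z)).2.1
  simp only [e₂, Prod.mk_add_mk, zero_add, add_zero] at this
  rw [this]

lemma Field.per_z (h : Field φ) (x y : ℝ) : (φ (x, y, 1)).2.2 = (φ (x, y, 0)).2.2 := by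
  have := (h.per (x, y, 0)).2.2
  simp only [e₃, Prod.mk_add_mk, zero_add, add_zero] at this
  rw [this]

lemma integral_line {g g' : ℝ → ℝ} (hg : ∀ x, HasDerivAt g (g' x) x) (hc : Continuous g') (a b : ℝ) :
    ∫ x in a..b, g' x = g b - g a :=
  intervalIntegral.integral_eq_sub_of_hasDerivAt (fun x _ => hg x) (hc.intervalIntegrable a b)

/-- The divergence of a periodic field integrates to zero over the cube. -/
lemma Field.integral_divg (h : Field φ) : ∫ p in cube, divg φ p = 0 := by
  have i1 := integrableOn_cube_of_continuous ((h.continuous_apply e₁).fst)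
  have i2 := integrableOn_cube_of_continuous ((h.continuous_apply e₂).snd.fst)
  have i3 := integrableOn_cube_of_continuous ((h.continuous_apply e₃).snd.snd)
  have h1 : ∫ p in cube, (fderiv ℝ φ p e₁).1 = 0 := by
    rw [setIntegral_cube_x i1]
    refine integral_eq_zero_of_ae (Filter.Eventually.of_forall fun q => ?_)
    show ∫ x, (fderiv ℝ φ (x, q) e₁).1 ∂unitVol = 0
    rw [integral_unitVol, integral_line (h.line_x q)
      ((h.continuous_apply e₁).fst.comp (continuous_id.prodMk continuous_const)), h.per_x, sub_self]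
  have h2 : ∫ p in cube, (fderiv ℝ φ p e₂).2.1 = 0 := by
    rw [setIntegral_cube_y i2]
    refine integral_eq_zero_of_ae (Filter.Eventually.of_forall fun x => ?_)
    refine integral_eq_zero_of_ae (Filter.Eventually.of_forall fun z => ?_)
    show ∫ y, (fderiv ℝ φ (x, y, z) e₂).2.1 ∂unitVol = 0
    rw [integral_unitVol, integral_line (h.line_y x z)
      ((h.continuous_apply e₂).snd.fst.comp
        (continuous_const.prodMk (continuous_id.prodMk continuous_const))), h.per_y, sub_self]
  have h3 : ∫ p in cube, (fderiv ℝ φ p e₃).2.2 = 0 := by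
    rw [setIntegral_cube_z i3]
    refine integral_eq_zero_of_ae (Filter.Eventually.of_forall fun x => ?_)
    refine integral_eq_zero_of_ae (Filter.Eventually.of_forall fun y => ?_)
    show ∫ z, (fderiv ℝ φ (x, y, z) e₃).2.2 ∂unitVol = 0
    rw [integral_unitVol, integral_line (h.line_z x y)
      ((h.continuous_apply e₃).snd.snd.comp
        (continuous_const.prodMk (continuous_const.prodMk continuous_id))), h.per_z, sub_self]
  have i12 : IntegrableOn (fun p => (fderiv ℝ φ p e₁).1 + (fderiv ℝ φ p e₂).2.1) cube := i1.add i2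
  unfold divg
  rw [integral_add i12 i3, integral_add i1 i2, h1, h2, h3]
  norm_num

lemma Field.neg (h : Field φ) : Field (-φ) where
  smooth := h.smooth.neg
  per p := by simp only [Pi.neg_apply, (h.per p).1, (h.per p).2.1, (h.per p).2.2, and_self]
  bound p := by simpa using h.bound p

lemma divg_neg (φ : ℝ × ℝ × ℝ → ℝ × ℝ × ℝ) (p : ℝ × ℝ × ℝ) : divg (-φ) p = -divg φ p := by
  simp only [divg, fderiv_neg, neg_apply, Prod.fst_neg, Prod.snd_neg]
  ring

end

end Vale.Agent.P232
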